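import Vale.Agent.P216.D246.Span3
import Vale.Agent.P216.H456D.GlueT
import Vale.Agent.P216.D907.Cub
import Vale.Agent.P216.ND.Det
import Vale.Agent.P216.H779D.DegF
import Vale.Agent.P216.B609.GoalsD

/-!
# P216-D, D1: from a closed Riemannian manifold to the data of the blocks
-/

open Set Topology Bundle Manifold
open scoped ContDiff

namespace Vale.Agent.P216.D311

open Vale.Agent.P216.Sl Vale.Agent.P216.PS Vale.Agent.P216.N929 Vale.Agent.P216.AS
  Vale.Agent.P216.H901 Vale.Agent.P216.H83 Vale.Agent.P216.H133C Vale.Agent.P216.H456C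
  Vale.Agent.P216.H456D Vale.Agent.P216.D246 Vale.Agent.P216.C313

/-- **Thom cochains** of a closed connected topological manifold: for every non-exact list cocycle
`w` of top degree and every scale there is a Thom cochain with slices in the class of `w`. -/
theorem exists_tau {M : Type} [MetricSpace M] [CompactSpace M] [ConnectedSpace M] {n : ℕ}
    (hn : 1 ≤ n) (loc : LocEuc M n) {k : Type} [Field k] (h2 : (2 : k) ≠ 0) {w : List M → k}
    (hw : CocL (univ : Set M) n w) (hw0 : ¬ ExL (univ : Set M) n w) {ρ₁ : ℝ} (hρ : 0 < ρ₁) :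
    ∃ τ : N929.Tau k M n ρ₁, ∀ y : M, ExL (univ : Set M) n fun l =>
      τ.f (l.map fun x => (x, y)) - w l := by
  have hω : absE k univ n (cls (tr M) (on k) w hw) ≠ 0 := fun h =>
    hw0 (cls_eq_zero.1 ((absE k univ n).map_eq_zero_iff.1 h))
  exact exists_tau_of_LEx hw (glueT h2 loc _ (fun c v δ hδ hb =>
    (lesA_box_bij h2 hn loc hω c v δ hδ hb).1) fun c => exists_iota h2 hn loc hω c) hρ

/-- A non-empty manifold of positive dimension has two points. -/
theorem nontrivial_of_locEuc {M : Type} [TopologicalSpace M] [Nonempty M] {n : ℕ} (hn : 1 ≤ n)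
    (loc : LocEuc M n) : Nontrivial M := by
  obtain ⟨x⟩ := ‹Nonempty M›
  obtain ⟨c, -, -⟩ := loc x
  have h1 : ‖(fun _ => 1 : Fin n → ℝ)‖ ≤ 2 := by
    refine (pi_norm_le_iff_of_nonneg (by norm_num)).2 fun i => by norm_num
  have h0 : ‖(0 : Fin n → ℝ)‖ ≤ 2 := by rw [norm_zero]; norm_num
  refine ⟨c.ψ 0, c.ψ fun _ => 1, fun h => ?_⟩
  have h2 := congrArg c.φ h
  rw [c.φψ _ h0, c.φψ _ h1] at h2
  have h3 := congrFun h2 ⟨0, hn⟩
  exact zero_ne_one h3

section Riem

variable (E : Type) [NormedAddCommGroup E] [NormedSpace ℝ E] [FiniteDimensional ℝ E]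
    (M : Type) [MetricSpace M] [CompactSpace M] [ChartedSpace E M] [IsManifold 𝓘(ℝ, E) ∞ M]
    [RiemannianBundle (fun x : M => TangentSpace 𝓘(ℝ, E) x)]
    [IsContMDiffRiemannianBundle 𝓘(ℝ, E) ∞ E (fun x : M => TangentSpace 𝓘(ℝ, E) x)]
    [IsRiemannianManifold 𝓘(ℝ, E) M]

/-- **The data of a closed Riemannian manifold used by the topological blocks.** -/
theorem riem_data [ConnectedSpace M] (hE : 1 ≤ Module.finrank ℝ E) :
    LocEuc M (Module.finrank ℝ E) ∧ Nontrivial M ∧ B64.FinM M ∧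
      ∃ ρ : ℝ, 0 < ρ ∧ LS.UniqSeg M ρ ∧ GM.LOC M := by
  obtain ⟨ρ, hρ, hs, -⟩ := Geo.exists_uniqSeg E M
  have loc : LocEuc M (Module.finrank ℝ E) := D907.cub E M
  exact ⟨loc, nontrivial_of_locEuc hE loc, B609.finM_of_chartedSpace E, ρ, hρ, hs,
    H319.loc (E := E) hρ hs (H844.f4_M E M)⟩

end Riem

section Omega

open H779D

/-- **(A) OMEGA of D1**: the based loops of a closed simply connected manifold `M` of dimension
`m + 1` with maps `f : M → S^(m+1)`, `g : S^(m+1) → M`, `f ∘ g` of degree `D`, over all fields in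
which `2` and `D` are invertible. -/
theorem omega_of_deg (M : Type) [MetricSpace M] [CompactSpace M] [SimplyConnectedSpace M]
    {m : ℕ} (hm : 1 ≤ m) (loc : LocEuc M (m + 1)) {ρ : ℝ} (hρ : 0 < ρ) (hU : LS.UniqSeg M ρ)
    (x₀ : M) {f : C(M, Sq m)} {g : C(Sq m, M)} {D : ℤ} (h : (f.comp g).Homotopic (powS m D)) :
    ∃ B : ℝ, 0 < B ∧ ∀ (k : Type) [Field k], (2 : k) ≠ 0 ∧ (D : k) ≠ 0 →
      Nonempty (B64.OmegaOut M m x₀ B k) := by
  have : ConnectedSpace M := inferInstance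
  have : Nontrivial M := nontrivial_of_locEuc (by omega) loc
  refine ND.omegaD_of_deg M hm hρ hU x₀ (f := f) g.continuous (fun k _ => (2 : k) ≠ 0 ∧ (D : k) ≠ 0)
    fun k _ hk => ?_
  have hS0 : ¬ ExL (univ : Set (Sq m)) (m + 1) (cS k m) := not_exL_cS hm
  have hS : CocL (univ : Set (Sq m)) (m + 1) (cS k m) := ⟨_, epsS_pos m, cS_coc⟩
  have hfg : CocL (univ : Set (Sq m)) (m + 1) fun l => cS k m (l.map fun x => f (g x)) :=
    omc_cocL k (f.comp g)
  refine ⟨cS k m, (D : k), hk.2, cS_nrm, hS, hS0, ?_, fun ρ₁ hρ₁ =>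
    exists_tau (by omega) loc hk.1 (omc_cocL k f) (not_exL_omc hm h k hk.2) hρ₁⟩
  exact exL_cS hm h

end Omega

end Vale.Agent.P216.D311
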