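import Vale.Agent.P216.H779D.DegA
import Vale.Agent.P216.Q633.Ang
import Vale.Agent.P216.B64.SCS

/-!
# The standard self map of degree `D` of the round sphere is Lipschitz

`powR m D : C(Rnd (m + 1), Rnd (m + 1))` is `powS m D` for the angle metric.
-/

set_option linter.all false

open Set Filter Topology

namespace Vale.Agent.P216.D311

open H779D Q633 B64

/-- The constant. -/
noncomputable def cD (D : ℤ) : ℝ := max 1 |(D : ℝ)|

theorem one_le_cD (D : ℤ) : 1 ≤ cD D := le_max_left _ _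

theorem abs_le_cD (D : ℤ) : |(D : ℝ)| ≤ cD D := le_max_right _ _

theorem norm_pow_sub_pow {u v : ℂ} (hu : ‖u‖ = 1) (hv : ‖v‖ = 1) (n : ℕ) :
    ‖u ^ n - v ^ n‖ ≤ n * ‖u - v‖ := by
  induction n with
  | zero => simp
  | succ n ih =>
    have h : u ^ (n + 1) - v ^ (n + 1) = u ^ n * (u - v) + (u ^ n - v ^ n) * v := by ring
    rw [h]
    refine (norm_add_le _ _).trans ?_
    rw [norm_mul, norm_mul, norm_pow, hu, hv, one_pow, one_mul, mul_one]
    push_cast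
    linarith

theorem norm_zpow_sub_zpow {u v : ℂ} (hu : ‖u‖ = 1) (hv : ‖v‖ = 1) (D : ℤ) :
    ‖u ^ D - v ^ D‖ ≤ |(D : ℝ)| * ‖u - v‖ := by
  have hu0 : u ≠ 0 := norm_ne_zero_iff.1 (by rw [hu]; exact one_ne_zero)
  have hv0 : v ≠ 0 := norm_ne_zero_iff.1 (by rw [hv]; exact one_ne_zero)
  obtain ⟨n, rfl | rfl⟩ := D.eq_nat_or_neg
  · rw [zpow_natCast, zpow_natCast]
    refine (norm_pow_sub_pow hu hv n).trans (le_of_eq ?_)
    push_cast
    rw [abs_of_nonneg (Nat.cast_nonneg n)]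
  · rw [zpow_neg, zpow_neg, zpow_natCast, zpow_natCast]
    have h : (u ^ n)⁻¹ - (v ^ n)⁻¹ = (v ^ n - u ^ n) / (u ^ n * v ^ n) := by
      have := pow_ne_zero n hu0
      have := pow_ne_zero n hv0
      field_simp
    rw [h, norm_div, norm_mul, norm_pow, norm_pow, hu, hv, one_pow, one_mul, div_one,
      norm_sub_rev]
    refine (norm_pow_sub_pow hu hv n).trans (le_of_eq ?_)
    push_cast
    rw [abs_neg, abs_of_nonneg (Nat.cast_nonneg n)]

/-- polar coordinates -/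
theorem norm_sub_sq_polar {u v : ℂ} (hu : ‖u‖ = 1) (hv : ‖v‖ = 1) (r s : ℝ) :
    ‖(r : ℂ) * u - s * v‖ ^ 2 = (r - s) ^ 2 + r * s * ‖u - v‖ ^ 2 := by
  have hu' : u.re ^ 2 + u.im ^ 2 = 1 := by
    have := Complex.sq_norm u
    rw [hu, Complex.normSq_apply] at this
    linarith
  have hv' : v.re ^ 2 + v.im ^ 2 = 1 := by
    have := Complex.sq_norm v
    rw [hv, Complex.normSq_apply] at this
    linarith
  rw [Complex.sq_norm, Complex.sq_norm, Complex.normSq_apply, Complex.normSq_apply]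
  simp only [Complex.sub_re, Complex.sub_im, Complex.mul_re, Complex.mul_im, Complex.ofReal_re,
    Complex.ofReal_im, zero_mul, sub_zero, add_zero]
  linear_combination (r * r - r * s) * hu' + (s * s - r * s) * hv'

theorem norm_pw_sub (D : ℤ) (z w : ℂ) : ‖pw D z - pw D w‖ ≤ cD D * ‖z - w‖ := by
  have hc := one_le_cD D
  by_cases hz : z = 0
  · rw [hz, pw_zero, zero_sub, zero_sub, norm_neg, norm_neg, norm_pw]
    nlinarith [norm_nonneg w]
  by_cases hw : w = 0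
  · rw [hw, pw_zero, sub_zero, sub_zero, norm_pw]
    nlinarith [norm_nonneg z]
  have hz' : ‖z‖ ≠ 0 := norm_ne_zero_iff.2 hz
  have hw' : ‖w‖ ≠ 0 := norm_ne_zero_iff.2 hw
  have hzc : (‖z‖ : ℂ) ≠ 0 := by exact_mod_cast hz'
  have hwc : (‖w‖ : ℂ) ≠ 0 := by exact_mod_cast hw'
  set u := z / ‖z‖ with hu
  set v := w / ‖w‖ with hv
  have nu : ‖u‖ = 1 := by rw [hu, norm_div, Complex.norm_real, norm_norm, div_self hz']
  have nv : ‖v‖ = 1 := by rw [hv, norm_div, Complex.norm_real, norm_norm, div_self hw']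
  have ez : z = (‖z‖ : ℂ) * u := by rw [hu, mul_div_cancel₀ _ hzc]
  have ew : w = (‖w‖ : ℂ) * v := by rw [hv, mul_div_cancel₀ _ hwc]
  have h1 : ‖pw D z - pw D w‖ ^ 2 = (‖z‖ - ‖w‖) ^ 2 + ‖z‖ * ‖w‖ * ‖u ^ D - v ^ D‖ ^ 2 := by
    have nuD : ‖u ^ D‖ = 1 := by rw [norm_zpow, nu, one_zpow]
    have nvD : ‖v ^ D‖ = 1 := by rw [norm_zpow, nv, one_zpow]
    exact norm_sub_sq_polar nuD nvD _ _
  have h2 : ‖z - w‖ ^ 2 = (‖z‖ - ‖w‖) ^ 2 + ‖z‖ * ‖w‖ * ‖u - v‖ ^ 2 := by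
    have := norm_sub_sq_polar nu nv ‖z‖ ‖w‖
    rwa [← ez, ← ew] at this
  have h3 : ‖u ^ D - v ^ D‖ ^ 2 ≤ cD D ^ 2 * ‖u - v‖ ^ 2 := by
    rw [← mul_pow]
    refine pow_le_pow_left₀ (norm_nonneg _) ((norm_zpow_sub_zpow nu nv D).trans ?_) 2
    exact mul_le_mul_of_nonneg_right (abs_le_cD D) (norm_nonneg _)
  have h4 : 0 ≤ ‖z‖ * ‖w‖ := by positivity
  have h5 : ‖pw D z - pw D w‖ ^ 2 ≤ (cD D * ‖z - w‖) ^ 2 := by
    rw [mul_pow, h1, h2]
    have h6 : ‖z‖ * ‖w‖ * ‖u ^ D - v ^ D‖ ^ 2 ≤ ‖z‖ * ‖w‖ * (cD D ^ 2 * ‖u - v‖ ^ 2) :=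
      mul_le_mul_of_nonneg_left h3 h4
    have h7 : (‖z‖ - ‖w‖) ^ 2 ≤ cD D ^ 2 * (‖z‖ - ‖w‖) ^ 2 := by
      have : (1 : ℝ) ≤ cD D ^ 2 := by nlinarith
      nlinarith [sq_nonneg (‖z‖ - ‖w‖)]
    nlinarith
  exact (pow_le_pow_iff_left₀ (norm_nonneg _) (by positivity) two_ne_zero).1 h5

variable {m : ℕ}

theorem rc_sub (x y : EuclideanSpace ℝ (Fin (m + 1 + 1))) : rc (x - y) = rc x - rc y := rfl

/-- **`powS` is Lipschitz for the chordal metric.** -/
theorem dist_powS (D : ℤ) (x y : Sq m) : dist (powS m D x) (powS m D y) ≤ cD D * dist x y := by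
  have hc := one_le_cD D
  have e1 : dist (powS m D x) (powS m D y) =
      ‖mk (pw D (zc x.1)) (rc x.1) - mk (pw D (zc y.1)) (rc y.1)‖ := by
    rw [Subtype.dist_eq, dist_eq_norm]
    rfl
  have e2 : dist x y = ‖x.1 - y.1‖ := by rw [Subtype.dist_eq, dist_eq_norm]
  have h1 := norm_sq_eq (mk (pw D (zc x.1)) (rc x.1) - mk (pw D (zc y.1)) (rc y.1))
  have h2 := norm_sq_eq (x.1 - y.1)
  rw [zc_sub, rc_sub, zc_mk, zc_mk, rc_mk, rc_mk] at h1
  rw [zc_sub, rc_sub] at h2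
  rw [e1, e2]
  have h3 : ‖pw D (zc x.1) - pw D (zc y.1)‖ ^ 2 ≤ cD D ^ 2 * ‖zc x.1 - zc y.1‖ ^ 2 := by
    rw [← mul_pow]
    exact pow_le_pow_left₀ (norm_nonneg _) (norm_pw_sub D _ _) 2
  have h4 : 0 ≤ ∑ j, (rc x.1 - rc y.1) j ^ 2 := Finset.sum_nonneg fun _ _ => sq_nonneg _
  refine (pow_le_pow_iff_left₀ (norm_nonneg _) (by positivity) two_ne_zero).1 ?_
  rw [h1, mul_pow, h2]
  have h5 : (1 : ℝ) ≤ cD D ^ 2 := by nlinarith
  nlinarith

/-- **The self map of degree `D` of the round sphere.** -/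
noncomputable def powR (m : ℕ) (D : ℤ) : C(Rnd (m + 1), Rnd (m + 1)) :=
  (⟨(rndHomeo (m + 1)).symm, (rndHomeo (m + 1)).symm.continuous⟩ :
    C(Sph (m + 1), Rnd (m + 1))).comp ((powS m D).comp
      (⟨rndHomeo (m + 1), (rndHomeo (m + 1)).continuous⟩ : C(Rnd (m + 1), Sph (m + 1))))

theorem powR_pt (D : ℤ) (x : Rnd (m + 1)) : (powR m D x).pt = powS m D x.pt := rfl

/-- **`powR` is Lipschitz.** -/
theorem dist_powR (D : ℤ) (x y : Rnd (m + 1)) :
    dist (powR m D x) (powR m D y) ≤ (Real.pi / 2 * cD D) * dist x y := by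
  have hπ := Real.pi_pos
  have hc := one_le_cD D
  calc dist (powR m D x) (powR m D y)
      ≤ Real.pi / 2 * dist (powR m D x).pt (powR m D y).pt := dist_le_chord _ _
    _ ≤ Real.pi / 2 * (cD D * dist x.pt y.pt) := by
        refine mul_le_mul_of_nonneg_left ?_ (by positivity)
        exact dist_powS D x.pt y.pt
    _ ≤ Real.pi / 2 * (cD D * dist x y) := by
        refine mul_le_mul_of_nonneg_left ?_ (by positivity)
        exact mul_le_mul_of_nonneg_left (chord_le x y) (by linarith)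
    _ = _ := by ring

theorem powR_const_pos (D : ℤ) : 0 < Real.pi / 2 * cD D := by
  have hπ := Real.pi_pos
  have hc := one_le_cD D
  positivity

end Vale.Agent.P216.D311

namespace Vale.Agent.P216.D311

open H779D Q633 B64 LS

/-! ### The data of P216-D for the round sphere -/

theorem simplyConnected_rnd (n : ℕ) (hn : 2 ≤ n) : SimplyConnectedSpace (Rnd n) := by
  have := simplyConnected_sph n hn
  exact simplyConnected_of_homeo (rndHomeo n)

/-- Maps at distance `< ρ` are homotopic. -/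
theorem homotopic_of_close {N X : Type} [MetricSpace N] [CompactSpace N] [TopologicalSpace X]
    {ρ : ℝ} (hU : UniqSeg N ρ) (f h : C(X, N)) (hfh : ∀ x, dist (f x) (h x) < ρ) :
    f.Homotopic h := by
  refine ⟨⟨⟨fun p => seg (f p.2) (h p.2) p.1, ?_⟩, fun x => ?_, fun x => ?_⟩⟩
  · rw [← continuousOn_univ]
    exact ContinuousOn.seg hU (by fun_prop) (by fun_prop) (by fun_prop)
      (fun p _ => hfh p.2) (fun p _ => ⟨p.1.2.1, p.1.2.2⟩)
  · exact seg_zero _ _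
  · exact seg_one _ _

/-- The map of degree `D` between spheres, seen on the round sphere. -/
theorem exists_data {M : Type} [MetricSpace M] [CompactSpace M] {m : ℕ} {D : ℤ}
    (f : C(M, Sq m)) (g : C(Sq m, M)) (h : (f.comp g).Homotopic (powS m D)) :
    ∃ (f' : C(M, Rnd (m + 1))) (g' : C(Rnd (m + 1), M)) (K : ℝ), 0 < K ∧
      (∀ x y, dist (f' x) (f' y) ≤ K * dist x y) ∧ (f'.comp g').Homotopic (powR m D) := by
  let a : C(Sph (m + 1), Rnd (m + 1)) :=
    ⟨(rndHomeo (m + 1)).symm, (rndHomeo (m + 1)).symm.continuous⟩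
  let b : C(Rnd (m + 1), Sph (m + 1)) := ⟨rndHomeo (m + 1), (rndHomeo (m + 1)).continuous⟩
  obtain ⟨f', K, hK, hf, hc⟩ := exists_lip_rnd (a.comp f) (one_pos)
  refine ⟨f', g.comp b, K, hK, hf, ?_⟩
  have h1 : f'.Homotopic (a.comp f) := homotopic_of_close uniqSeg_rnd f' (a.comp f) fun x =>
    (hc x).trans_lt (by linarith [Real.pi_gt_three])
  have h2 : (f'.comp (g.comp b)).Homotopic ((a.comp f).comp (g.comp b)) :=
    h1.comp (ContinuousMap.Homotopic.refl _)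
  refine h2.trans ?_
  have h3 : ((a.comp f).comp (g.comp b)) = a.comp ((f.comp g).comp b) := rfl
  rw [h3]
  exact (ContinuousMap.Homotopic.refl a).comp (h.comp (ContinuousMap.Homotopic.refl b))

end Vale.Agent.P216.D311
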