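import Vale.Agent.P216.D311.LipM
import Vale.Agent.P216.D311.Pow
import Vale.Agent.P216.D337.TrMap
import Vale.Agent.P216.H494.DomRiem

/-!
# P216-D, D1 (c): the maps `f : M → S^n`, `g : S^n → M` can be taken Lipschitz
-/

set_option maxSynthPendingDepth 3
set_option linter.unusedSectionVars false

open Set Filter Topology Bundle Manifold Metric
open scoped ContDiff

namespace Vale.Agent.P216.D311

section Riem

variable (E : Type*) [NormedAddCommGroup E] [NormedSpace ℝ E] [FiniteDimensional ℝ E]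
  (M : Type*) [MetricSpace M] [ChartedSpace E M] [IsManifold 𝓘(ℝ, E) ∞ M]
  [RiemannianBundle (fun (x : M) ↦ TangentSpace 𝓘(ℝ, E) x)]
  [IsContMDiffRiemannianBundle 𝓘(ℝ, E) ∞ E (fun (x : M) ↦ TangentSpace 𝓘(ℝ, E) x)]
  [IsRiemannianManifold 𝓘(ℝ, E) M]

/-- The charts of a Riemannian manifold are Lipschitz charts. -/
theorem lipCharts_of_riemannian : LipCharts E M := by
  intro m
  have hy : Chart.phi (E := E) m m ∈ Chart.dom E m :=
    (extChartAt 𝓘(ℝ, E) m).map_source (mem_extChartAt_source m)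
  obtain ⟨ρ, C, hB⟩ := (Chart.localMetric (E := E) m).exists_goodBall hy
  obtain ⟨ε, hε, h1⟩ := Chart.nhds_chart m hy hB.rpos
  have e : Chart.psi m (Chart.phi (E := E) m m) = m := Chart.psi_phi m (mem_extChartAt_source m)
  rw [e] at h1
  refine ⟨ε, ρ, C, Chart.phi m, Chart.psi m, hε, hB.rpos, hB.cpos,
    fun a ha => Chart.psi_phi m (h1 a ha).1, fun u v hu hv => ?_, fun a b ha hb => ?_⟩
  · exact hB.up _ (mem_ball_iff_norm.2 hu) _ (mem_ball_iff_norm.2 hv)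
  · obtain ⟨ha1, ha2⟩ := h1 a ha
    obtain ⟨hb1, hb2⟩ := h1 b hb
    have h3 := hB.lo _ ha2 _ hb2
    rwa [Chart.psi_phi m ha1, Chart.psi_phi m hb1] at h3

end Riem

/-- **[LIP-G]** Lipschitz approximation of maps into a closed Riemannian manifold. -/
theorem exists_lipM (E : Type*) [NormedAddCommGroup E] [NormedSpace ℝ E] [FiniteDimensional ℝ E]
    {M : Type*} [MetricSpace M] [ChartedSpace E M] [IsManifold 𝓘(ℝ, E) ∞ M]
    [RiemannianBundle (fun (x : M) ↦ TangentSpace 𝓘(ℝ, E) x)]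
    [IsContMDiffRiemannianBundle 𝓘(ℝ, E) ∞ E (fun (x : M) ↦ TangentSpace 𝓘(ℝ, E) x)]
    [IsRiemannianManifold 𝓘(ℝ, E) M] {X : Type*} [MetricSpace X] [CompactSpace X] (g : C(X, M))
    {η : ℝ} (hη : 0 < η) : ∃ (g' : C(X, M)) (K : ℝ), 0 < K ∧
      (∀ a b, dist (g' a) (g' b) ≤ K * dist a b) ∧ ∀ x, dist (g' x) (g x) < η :=
  exists_lip_charts (lipCharts_of_riemannian E M) g hη

open H779D Q633 B64 LS D337

/-- The same up to homotopy. -/
theorem exists_lipM_homotopic (E : Type) [NormedAddCommGroup E] [NormedSpace ℝ E]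
    [FiniteDimensional ℝ E]
    {M : Type} [MetricSpace M] [CompactSpace M] [ChartedSpace E M] [IsManifold 𝓘(ℝ, E) ∞ M]
    [RiemannianBundle (fun (x : M) ↦ TangentSpace 𝓘(ℝ, E) x)]
    [IsContMDiffRiemannianBundle 𝓘(ℝ, E) ∞ E (fun (x : M) ↦ TangentSpace 𝓘(ℝ, E) x)]
    [IsRiemannianManifold 𝓘(ℝ, E) M] {X : Type} [MetricSpace X] [CompactSpace X] (g : C(X, M)) :
    ∃ (g' : C(X, M)) (K : ℝ), 0 < K ∧ LipC g' K ∧ g'.Homotopic g := by
  rcases isEmpty_or_nonempty M with hM | hM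
  · exact ⟨g, 1, one_pos, fun x => (hM.false (g x)).elim, ContinuousMap.Homotopic.refl _⟩
  obtain ⟨ρ, hρ, hU, -⟩ := Geo.exists_uniqSeg E M
  obtain ⟨g', K, hK, hl, hc⟩ := exists_lipM E g hρ
  exact ⟨g', K, hK, hl, homotopic_of_close (H609.uniqSeg_LS hU) g' g hc⟩

/-- **The data of D1**: both maps Lipschitz, on the round sphere with the angle metric. -/
theorem exists_data_lip (E : Type) [NormedAddCommGroup E] [NormedSpace ℝ E]
    [FiniteDimensional ℝ E]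
    {M : Type} [MetricSpace M] [CompactSpace M] [ChartedSpace E M] [IsManifold 𝓘(ℝ, E) ∞ M]
    [RiemannianBundle (fun (x : M) ↦ TangentSpace 𝓘(ℝ, E) x)]
    [IsContMDiffRiemannianBundle 𝓘(ℝ, E) ∞ E (fun (x : M) ↦ TangentSpace 𝓘(ℝ, E) x)]
    [IsRiemannianManifold 𝓘(ℝ, E) M] {m : ℕ} {D : ℤ}
    (f : C(M, Sq m)) (g : C(Sq m, M)) (h : (f.comp g).Homotopic (powS m D)) :
    ∃ (f' : C(M, Rnd (m + 1))) (g' : C(Rnd (m + 1), M)) (K K' : ℝ), 0 < K ∧ 0 < K' ∧
      LipC f' K ∧ LipC g' K' ∧ (f'.comp g').Homotopic (powR m D) := by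
  obtain ⟨f', g₁, K, hK, hf, hfg⟩ := exists_data f g h
  obtain ⟨g', K', hK', hg, hgg⟩ := exists_lipM_homotopic E g₁
  exact ⟨f', g', K, K', hK, hK', hf, hg,
    ((ContinuousMap.Homotopic.refl f').comp hgg).trans hfg⟩

end Vale.Agent.P216.D311
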