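import Vale.Agent.P216.H126L.Lip
import Mathlib.Topology.MetricSpace.Thickening
import Mathlib.Analysis.InnerProductSpace.EuclideanDist

/-!
# Lipschitz approximation of maps into a space with Lipschitz charts

`exists_lip_charts`: a continuous map of a compact metric space into a metric space with Lipschitz
charts is uniformly close to a Lipschitz map.
-/

set_option linter.all false

open Set Filter Topology Metric

namespace Vale.Agent.P216.D311

/-- Lipschitz charts. -/
def LipCharts (E M : Type*) [NormedAddCommGroup E] [MetricSpace M] : Prop :=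
  ∀ m : M, ∃ (ε ρ C : ℝ) (φ : M → E) (ψ : E → M), 0 < ε ∧ 0 < ρ ∧ 0 < C ∧
    (∀ a, dist a m < ε → ψ (φ a) = a) ∧
    (∀ u v, ‖u - φ m‖ < ρ → ‖v - φ m‖ < ρ → dist (ψ u) (ψ v) ≤ C * ‖u - v‖) ∧
    (∀ a b, dist a m < ε → dist b m < ε → ‖φ a - φ b‖ ≤ C * dist a b)

/-- Lipschitz near a point. -/
def LL {X Y : Type*} [MetricSpace X] [MetricSpace Y] (g : X → Y) (x : X) : Prop :=
  ∃ δ > 0, ∃ K : ℝ, 0 ≤ K ∧ ∀ a b, dist a x < δ → dist b x < δ → dist (g a) (g b) ≤ K * dist a b

variable {X M E : Type*} [MetricSpace X] [MetricSpace M]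

theorem LL.congr {g g' : X → M} {x : X} (h : LL g x) {r : ℝ} (hr : 0 < r)
    (he : ∀ a, dist a x < r → g' a = g a) : LL g' x := by
  obtain ⟨δ, hδ, K, hK, h⟩ := h
  refine ⟨min δ r, lt_min hδ hr, K, hK, fun a b ha hb => ?_⟩
  rw [he a (ha.trans_le (min_le_right _ _)), he b (hb.trans_le (min_le_right _ _))]
  exact h a b (ha.trans_le (min_le_left _ _)) (hb.trans_le (min_le_left _ _))

/-- Locally Lipschitz on a compact space is Lipschitz. -/
theorem lip_of_LL [CompactSpace X] (g : C(X, M)) (h : ∀ x, LL g x) :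
    ∃ K : ℝ, 0 < K ∧ ∀ a b, dist (g a) (g b) ≤ K * dist a b := by
  classical
  choose δ hδ K hK H using h
  obtain ⟨t, ht⟩ := isCompact_univ.elim_finite_subcover (fun x : X => ball x (δ x))
    (fun x => isOpen_ball) fun x _ => mem_iUnion.2 ⟨x, mem_ball_self (hδ x)⟩
  obtain ⟨d, hd, hL⟩ := lebesgue_number_lemma_of_metric (c := fun i : t => ball (i : X) (δ i))
    (s := (univ : Set X)) isCompact_univ (fun _ => isOpen_ball) fun x hx => by
      obtain ⟨y, hy, hxy⟩ := mem_iUnion₂.1 (ht hx)
      exact mem_iUnion.2 ⟨⟨y, hy⟩, hxy⟩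
  obtain ⟨D, hD⟩ := Metric.isBounded_iff.1 (isCompact_range g.continuous).isBounded
  have hD0 : 0 ≤ max D 0 := le_max_right _ _
  have hS : 0 ≤ ∑ i ∈ t, K i := Finset.sum_nonneg fun i _ => hK i
  refine ⟨∑ i ∈ t, K i + max D 0 / d + 1, by positivity, fun a b => ?_⟩
  rcases lt_or_ge (dist a b) d with hab | hab
  · obtain ⟨i, hi⟩ := hL a (mem_univ a)
    have h1 := H i a b (hi (mem_ball_self hd)) (hi (by rwa [mem_ball, dist_comm]))
    refine h1.trans (mul_le_mul_of_nonneg_right ?_ dist_nonneg)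
    have h2 : K i ≤ ∑ i ∈ t, K i := Finset.single_le_sum (fun i _ => hK i) i.2
    have h3 : 0 ≤ max D 0 / d := by positivity
    linarith
  · have h1 := hD (mem_range_self a) (mem_range_self b)
    have h2 : max D 0 ≤ max D 0 / d * dist a b := by
      rw [div_mul_eq_mul_div, le_div_iff₀ hd]
      exact mul_le_mul_of_nonneg_left hab hD0
    have h3 : 0 ≤ (∑ i ∈ t, K i + 1) * dist a b := by positivity
    have h4 := le_max_left D 0
    nlinarith

variable [NormedAddCommGroup E] [NormedSpace ℝ E] [FiniteDimensional ℝ E] [CompactSpace X]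

/-- Lipschitz approximation of maps into a finite dimensional normed space. -/
theorem exists_lip_fd {Y : Type*} [MetricSpace Y] [CompactSpace Y] (f : C(Y, E)) {η : ℝ}
    (hη : 0 < η) : ∃ (s : Y → E) (K : ℝ), 0 ≤ K ∧ (∀ a b, ‖s a - s b‖ ≤ K * dist a b) ∧
      ∀ y, ‖s y - f y‖ ≤ η := by
  set L : E ≃L[ℝ] EuclideanSpace ℝ (Fin (Module.finrank ℝ E)) := toEuclidean with hL
  set A : EuclideanSpace ℝ (Fin (Module.finrank ℝ E)) →L[ℝ] E :=
    (L.symm : EuclideanSpace ℝ (Fin (Module.finrank ℝ E)) →L[ℝ] E) with hA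
  obtain ⟨g, K, hK, hg⟩ := H126L.exists_lip_vec
    (⟨fun y => L (f y), L.continuous.comp f.continuous⟩ :
      C(Y, EuclideanSpace ℝ (Fin (Module.finrank ℝ E)))) (ε := η / (‖A‖ + 1)) (by positivity)
  refine ⟨fun y => A (g y), ‖A‖ * K, by positivity, fun a b => ?_, fun y => ?_⟩
  · rw [← map_sub]
    refine (A.le_opNorm _).trans ?_
    rw [mul_assoc, ← dist_eq_norm]
    exact mul_le_mul_of_nonneg_left (hK.dist_le_mul a b) (norm_nonneg _)
  · have h1 : f y = A (L (f y)) := (L.symm_apply_apply _).symm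
    rw [h1, ← map_sub]
    refine (A.le_opNorm _).trans ?_
    have h2 := hg y
    rw [dist_eq_norm] at h2
    refine (mul_le_mul_of_nonneg_left h2 (norm_nonneg _)).trans ?_
    rw [mul_div_assoc', div_le_iff₀ (by positivity)]
    nlinarith [norm_nonneg A, hη.le]

/-- The cut-off. -/
noncomputable def cut (p : X) (r : ℝ) (x : X) : ℝ := max 0 (min 1 (2 - dist x p / r))

theorem cut_nonneg (p : X) (r : ℝ) (x : X) : 0 ≤ cut p r x := le_max_left _ _

theorem cut_le (p : X) (r : ℝ) (x : X) : cut p r x ≤ 1 :=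
  max_le zero_le_one (min_le_left _ _)

theorem cut_one {p : X} {r : ℝ} (hr : 0 < r) {x : X} (hx : dist x p ≤ r) : cut p r x = 1 := by
  have h : 1 ≤ 2 - dist x p / r := by
    have := (div_le_one hr).2 hx
    linarith
  rw [cut, min_eq_left h, max_eq_right zero_le_one]

theorem cut_zero {p : X} {r : ℝ} (hr : 0 < r) {x : X} (hx : 2 * r ≤ dist x p) :
    cut p r x = 0 := by
  have h : 2 - dist x p / r ≤ 0 := by
    have := (le_div_iff₀ hr).2 hx
    linarith
  rw [cut, max_eq_left ((min_le_right _ _).trans h)]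

theorem cut_lip {p : X} {r : ℝ} (hr : 0 < r) (a b : X) :
    |cut p r a - cut p r b| ≤ 1 / r * dist a b := by
  have h1 : |cut p r a - cut p r b| ≤ |min 1 (2 - dist a p / r) - min 1 (2 - dist b p / r)| := by
    have := abs_max_sub_max_le_abs (min 1 (2 - dist a p / r)) (min 1 (2 - dist b p / r)) 0
    rwa [max_comm _ (0 : ℝ), max_comm _ (0 : ℝ)] at this
  have h2 : |min 1 (2 - dist a p / r) - min 1 (2 - dist b p / r)| ≤
      |(2 - dist a p / r) - (2 - dist b p / r)| := by
    have := abs_min_sub_min_le_max 1 (2 - dist a p / r) 1 (2 - dist b p / r)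
    rw [sub_self, abs_zero, max_eq_right (abs_nonneg _)] at this
    exact this
  have h3 : (2 - dist a p / r) - (2 - dist b p / r) = (dist b p - dist a p) / r := by ring
  refine (h1.trans h2).trans ?_
  rw [h3, abs_div, abs_of_pos hr, div_eq_mul_inv, mul_comm, one_div]
  refine mul_le_mul_of_nonneg_left ?_ (by positivity)
  rw [abs_sub_comm]
  exact abs_dist_sub_le a b p

/-- **One step.** -/
theorem step {m : M} {ε ρ C : ℝ} {φ : M → E} {ψ : E → M} (hρ : 0 < ρ) (hC : 0 < C)
    (h1 : ∀ a, dist a m < ε → ψ (φ a) = a)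
    (h2 : ∀ u v, ‖u - φ m‖ < ρ → ‖v - φ m‖ < ρ → dist (ψ u) (ψ v) ≤ C * ‖u - v‖)
    (h3 : ∀ a b, dist a m < ε → dist b m < ε → ‖φ a - φ b‖ ≤ C * dist a b)
    (g : C(X, M)) (p : X) {r : ℝ} (hr : 0 < r)
    (hg1 : ∀ x, dist x p ≤ 3 * r → dist (g x) m < ε)
    (hg2 : ∀ x, dist x p ≤ 3 * r → ‖φ (g x) - φ m‖ < ρ / 2) {η : ℝ} (hη : 0 < η) :
    ∃ g' : C(X, M), (∀ x, dist (g' x) (g x) ≤ η) ∧ (∀ x, LL g x → LL g' x) ∧
      ∀ x, dist x p < r → LL g' x := by
  classical
  have hcl : IsClosed {x : X | dist x p ≤ 3 * r} := isClosed_le (by fun_prop) continuous_const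
  haveI : CompactSpace {x : X | dist x p ≤ 3 * r} := isCompact_iff_compactSpace.1 hcl.isCompact
  set η₁ : ℝ := min (ρ / 2) (η / C) with hη₁
  have hη₁0 : 0 < η₁ := lt_min (by positivity) (by positivity)
  obtain ⟨s, Ks, hKs, hs1, hs2⟩ := exists_lip_fd (Y := {x : X | dist x p ≤ 3 * r})
    (⟨fun y => φ (g y), by
      refine continuous_iff_continuousAt.2 fun y => ?_
      refine Metric.continuousAt_iff.2 fun e he => ?_
      obtain ⟨d, hd, H⟩ := Metric.continuousAt_iff.1 (g.continuous.continuousAt (x := (y : X)))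
        (e / C) (by positivity)
      refine ⟨d, hd, fun {z} hz => ?_⟩
      rw [dist_eq_norm]
      refine (h3 _ _ (hg1 _ z.2) (hg1 _ y.2)).trans_lt ?_
      have := H hz
      rw [lt_div_iff₀ hC] at this
      linarith⟩ : C({x : X | dist x p ≤ 3 * r}, E)) hη₁0
  set S : X → E := fun x => if h : dist x p ≤ 3 * r then s ⟨x, h⟩ else 0 with hS
  have hSe : ∀ x (h : dist x p ≤ 3 * r), S x = s ⟨x, h⟩ := fun x h => dif_pos h
  have hSl : ∀ a b, dist a p ≤ 3 * r → dist b p ≤ 3 * r → ‖S a - S b‖ ≤ Ks * dist a b :=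
    fun a b ha hb => by rw [hSe a ha, hSe b hb]; exact hs1 _ _
  have hSf : ∀ a, dist a p ≤ 3 * r → ‖S a - φ (g a)‖ ≤ η₁ := fun a ha => by
    rw [hSe a ha]; exact hs2 _
  set F : X → E := fun x => φ (g x) + cut p r x • (S x - φ (g x)) with hF
  set G : X → M := fun x => if dist x p < 3 * r then ψ (F x) else g x with hG
  have hFm : ∀ a, dist a p ≤ 3 * r → ‖F a - φ m‖ < ρ := fun a ha => by
    have e : F a - φ m = (φ (g a) - φ m) + cut p r a • (S a - φ (g a)) := by
      simp only [hF]; abel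
    rw [e]
    refine (norm_add_le _ _).trans_lt ?_
    rw [norm_smul, Real.norm_of_nonneg (cut_nonneg _ _ _)]
    have h4 : cut p r a * ‖S a - φ (g a)‖ ≤ 1 * η₁ :=
      mul_le_mul (cut_le _ _ _) (hSf a ha) (norm_nonneg _) zero_le_one
    have h5 := hg2 a ha
    have h6 : η₁ ≤ ρ / 2 := min_le_left _ _
    linarith
  have hFF : ∀ a b, dist a p ≤ 3 * r → dist b p ≤ 3 * r →
      ‖F a - F b‖ ≤ 2 * C * dist (g a) (g b) + (Ks + η₁ * (1 / r)) * dist a b := by
    intro a b ha hb
    have e : F a - F b = (φ (g a) - φ (g b)) +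
        (cut p r a • ((S a - S b) - (φ (g a) - φ (g b))) +
          (cut p r a - cut p r b) • (S b - φ (g b))) := by
      simp only [hF, smul_sub, sub_smul]; abel
    rw [e]
    have h4 := h3 _ _ (hg1 a ha) (hg1 b hb)
    have h5 : ‖cut p r a • ((S a - S b) - (φ (g a) - φ (g b)))‖ ≤
        Ks * dist a b + C * dist (g a) (g b) := by
      rw [norm_smul, Real.norm_of_nonneg (cut_nonneg _ _ _)]
      refine (mul_le_of_le_one_left (norm_nonneg _) (cut_le _ _ _)).trans ?_
      exact (norm_sub_le _ _).trans (add_le_add (hSl a b ha hb) h4)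
    have h6 : ‖(cut p r a - cut p r b) • (S b - φ (g b))‖ ≤ η₁ * (1 / r) * dist a b := by
      rw [norm_smul, Real.norm_eq_abs]
      refine (mul_le_mul (cut_lip hr a b) (hSf b hb) (norm_nonneg _) (by positivity)).trans
        (le_of_eq (by ring))
    have h7 := norm_add_le (φ (g a) - φ (g b))
      (cut p r a • ((S a - S b) - (φ (g a) - φ (g b))) +
          (cut p r a - cut p r b) • (S b - φ (g b)))
    have h8 := norm_add_le (cut p r a • ((S a - S b) - (φ (g a) - φ (g b))))
      ((cut p r a - cut p r b) • (S b - φ (g b)))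
    linarith
  have hGin : ∀ a, dist a p < 3 * r → G a = ψ (F a) := fun a ha => if_pos ha
  have hGout : ∀ a, 2 * r < dist a p → G a = g a := fun a ha => by
    by_cases h : dist a p < 3 * r
    · rw [hGin a h, hF]
      simp only
      rw [cut_zero hr ha.le, zero_smul, add_zero, h1 _ (hg1 a h.le)]
    · exact if_neg h
  have hGG : ∀ a b, dist a p < 3 * r → dist b p < 3 * r → dist (G a) (G b) ≤
      C * (2 * C * dist (g a) (g b) + (Ks + η₁ * (1 / r)) * dist a b) := fun a b ha hb => by
    rw [hGin a ha, hGin b hb]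
    exact (h2 _ _ (hFm a ha.le) (hFm b hb.le)).trans
      (mul_le_mul_of_nonneg_left (hFF a b ha.le hb.le) hC.le)
  have hcont : Continuous G := by
    refine continuous_iff_continuousAt.2 fun x => ?_
    rcases lt_or_ge (dist x p) (3 * r) with hx | hx
    · refine Metric.continuousAt_iff.2 fun e he => ?_
      set A : ℝ := Ks + η₁ * (1 / r) with hA
      have hA0 : 0 ≤ A := by positivity
      obtain ⟨d, hd, H⟩ := Metric.continuousAt_iff.1 (g.continuous.continuousAt (x := x))
        (e / (4 * C * C)) (by positivity)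
      refine ⟨min (min d (3 * r - dist x p)) (e / (2 * C * (A + 1))), lt_min (lt_min hd
        (by linarith)) (by positivity), fun {y} hy => ?_⟩
      have hy1 := hy.trans_le ((min_le_left _ _).trans (min_le_left _ _))
      have hy2 := hy.trans_le ((min_le_left _ _).trans (min_le_right _ _))
      have hy3 := hy.trans_le (min_le_right _ _)
      have hyp : dist y p < 3 * r := by
        have := dist_triangle y x p
        linarith
      refine (hGG y x hyp hx).trans_lt ?_
      have h4 := H hy1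
      rw [lt_div_iff₀ (by positivity)] at h4 hy3
      have h5 : 0 ≤ C * dist y x := by positivity
      nlinarith
    · have hx2 : 2 * r < dist x p := by linarith
      refine ContinuousAt.congr (f := g) g.continuous.continuousAt ?_
      refine eventually_of_mem (ball_mem_nhds x (ε := dist x p - 2 * r) (by linarith))
        fun y hy => (hGout y ?_).symm
      have h4 := dist_triangle x y p
      rw [mem_ball, dist_comm] at hy
      linarith
  refine ⟨⟨G, hcont⟩, fun x => ?_, fun x hx => ?_, fun x hx => ?_⟩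
  · change dist (G x) (g x) ≤ η
    by_cases h : dist x p < 3 * r
    · have hxm : ‖φ (g x) - φ m‖ < ρ := (hg2 x h.le).trans (by linarith)
      have e : g x = ψ (φ (g x)) := (h1 _ (hg1 x h.le)).symm
      rw [hGin x h]
      conv_lhs => rw [e]
      refine (h2 _ _ (hFm x h.le) hxm).trans ?_
      have e2 : F x - φ (g x) = cut p r x • (S x - φ (g x)) := by simp only [hF]; abel
      rw [e2, norm_smul, Real.norm_of_nonneg (cut_nonneg _ _ _)]
      have h4 : cut p r x * ‖S x - φ (g x)‖ ≤ 1 * η₁ :=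
        mul_le_mul (cut_le _ _ _) (hSf x h.le) (norm_nonneg _) zero_le_one
      have h5 : η₁ ≤ η / C := min_le_right _ _
      rw [le_div_iff₀ hC] at h5
      nlinarith
    · have : G x = g x := if_neg h
      rw [this, dist_self]
      exact hη.le
  · change LL G x
    rcases lt_or_ge (dist x p) (3 * r) with hxp | hxp
    · obtain ⟨δ, hδ, K, hK, H⟩ := hx
      refine ⟨min δ (3 * r - dist x p), lt_min hδ (by linarith),
        C * (2 * C * K + (Ks + η₁ * (1 / r))), by positivity, fun a b ha hb => ?_⟩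
      have hap : ∀ y, dist y x < min δ (3 * r - dist x p) → dist y p < 3 * r := fun y hy => by
        have h4 := dist_triangle y x p
        have h5 := hy.trans_le (min_le_right _ _)
        linarith
      refine (hGG a b (hap a ha) (hap b hb)).trans ?_
      have h4 := H a b (ha.trans_le (min_le_left _ _)) (hb.trans_le (min_le_left _ _))
      have h5 : C * (2 * C * dist (g a) (g b)) ≤ C * (2 * C * (K * dist a b)) := by gcongr
      nlinarith
    · have hx2 : 2 * r < dist x p := by linarith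
      refine hx.congr (r := dist x p - 2 * r) (by linarith) fun y hy => hGout y ?_
      have h4 := dist_triangle x y p
      rw [dist_comm] at hy
      linarith
  · change LL G x
    refine ⟨r - dist x p, by linarith, C * Ks, by positivity, fun a b ha hb => ?_⟩
    have hap : ∀ y, dist y x < r - dist x p → dist y p ≤ r := fun y hy => by
      have h4 := dist_triangle y x p
      linarith
    have ha' := hap a ha
    have hb' := hap b hb
    have hFS : ∀ y, dist y p ≤ r → F y = S y := fun y hy => by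
      simp only [hF]
      rw [cut_one hr hy, one_smul]; abel
    rw [hGin a (by linarith), hGin b (by linarith)]
    refine (h2 _ _ (hFm a (by linarith)) (hFm b (by linarith))).trans ?_
    rw [hFS a ha', hFS b hb', mul_assoc]
    exact mul_le_mul_of_nonneg_left (hSl a b (by linarith) (by linarith)) hC.le

/-- **Lipschitz approximation.** -/
theorem exists_lip_charts (hM : LipCharts E M) (g : C(X, M)) {η : ℝ} (hη : 0 < η) :
    ∃ (g' : C(X, M)) (K : ℝ), 0 < K ∧ (∀ a b, dist (g' a) (g' b) ≤ K * dist a b) ∧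
      ∀ x, dist (g' x) (g x) < η := by
  classical
  have key : ∀ x : X, ∃ (m : M) (ε ρ C : ℝ) (φ : M → E) (ψ : E → M) (r d : ℝ), 0 < ρ ∧ 0 < C ∧
      (∀ a, dist a m < ε → ψ (φ a) = a) ∧
      (∀ u v, ‖u - φ m‖ < ρ → ‖v - φ m‖ < ρ → dist (ψ u) (ψ v) ≤ C * ‖u - v‖) ∧
      (∀ a b, dist a m < ε → dist b m < ε → ‖φ a - φ b‖ ≤ C * dist a b) ∧ 0 < r ∧ 0 < d ∧
      (∀ a, dist a m < 2 * d → dist a m < ε ∧ ‖φ a - φ m‖ < ρ / 2) ∧
      ∀ y, dist y x ≤ 3 * r → dist (g y) m < d := by
    intro x
    obtain ⟨ε, ρ, C, φ, ψ, hε, hρ, hC, h1, h2, h3⟩ := hM (g x)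
    set d : ℝ := min (ε / 2) (ρ / (4 * C)) with hd
    have hd0 : 0 < d := lt_min (by positivity) (by positivity)
    obtain ⟨δ, hδ, H⟩ := Metric.continuousAt_iff.1 (g.continuous.continuousAt (x := x)) d hd0
    refine ⟨g x, ε, ρ, C, φ, ψ, δ / 6, d, hρ, hC, h1, h2, h3, by positivity, hd0,
      fun a ha => ?_, fun y hy => H (by linarith)⟩
    have ha1 : dist a (g x) < ε := by
      have := min_le_left (ε / 2) (ρ / (4 * C))
      linarith
    refine ⟨ha1, (h3 a (g x) ha1 (by rwa [dist_self])).trans_lt ?_⟩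
    have h4 : d ≤ ρ / (4 * C) := min_le_right _ _
    rw [le_div_iff₀ (by positivity)] at h4
    nlinarith
  choose m ε ρ C φ ψ r d hρ hC h1 h2 h3 hr hd hd2 hgd using key
  obtain ⟨t, ht⟩ := isCompact_univ.elim_finite_subcover (fun x : X => ball x (r x))
    (fun x => isOpen_ball) fun x _ => mem_iUnion.2 ⟨x, mem_ball_self (hr x)⟩
  have main : ∀ t' : Finset X, t' ⊆ t → ∀ e > 0, (∀ i ∈ t, e ≤ d i) → ∃ g' : C(X, M),
      (∀ x, dist (g' x) (g x) < e) ∧ ∀ x, x ∈ ⋃ i ∈ t', ball i (r i) → LL g' x := by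
    intro t'
    induction t' using Finset.induction with
    | empty => exact fun _ e he _ => ⟨g, fun x => by rwa [dist_self], fun x hx => by simp at hx⟩
    | insert i t' hi ih =>
      intro hsub e he hed
      obtain ⟨g₁, hg1, hg2⟩ := ih ((Finset.subset_insert _ _).trans hsub) (e / 2) (by positivity)
        fun j hj => by linarith [hed j hj]
      have hit : i ∈ t := hsub (Finset.mem_insert_self _ _)
      have hnear : ∀ x, dist x i ≤ 3 * r i → dist (g₁ x) (m i) < 2 * d i := fun x hx => by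
        have h4 := dist_triangle (g₁ x) (g x) (m i)
        have h5 := hg1 x
        have h6 := hgd i x hx
        have h7 := hed i hit
        linarith
      obtain ⟨g₂, hg3, hg4, hg5⟩ := step (hρ i) (hC i) (h1 i) (h2 i) (h3 i) g₁ i (hr i)
        (fun x hx => (hd2 i _ (hnear x hx)).1) (fun x hx => (hd2 i _ (hnear x hx)).2)
        (η := e / 4) (by positivity)
      refine ⟨g₂, fun x => ?_, fun x hx => ?_⟩
      · have h4 := dist_triangle (g₂ x) (g₁ x) (g x)
        have h5 := hg3 x
        have h6 := hg1 x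
        linarith
      · rw [Finset.set_biUnion_insert] at hx
        rcases hx with hx | hx
        · exact hg5 x hx
        · exact hg4 x (hg2 x hx)
  have hemin : ∃ e > 0, e ≤ η ∧ ∀ i ∈ t, e ≤ d i := by
    rcases t.eq_empty_or_nonempty with h | h
    · exact ⟨η, hη, le_rfl, fun i hi => by rw [h] at hi; exact absurd hi (Finset.notMem_empty _)⟩
    · obtain ⟨i, hi, him⟩ := t.exists_min_image d h
      exact ⟨min η (d i), lt_min hη (hd i), min_le_left _ _, fun j hj =>
        (min_le_right _ _).trans (him j hj)⟩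
  obtain ⟨e, he, heη, hed⟩ := hemin
  obtain ⟨g', hg1, hg2⟩ := main t subset_rfl e he hed
  obtain ⟨K, hK, hL⟩ := lip_of_LL g' fun x => hg2 x (ht (mem_univ x))
  exact ⟨g', K, hK, hL, fun x => (hg1 x).trans_le heη⟩

end Vale.Agent.P216.D311
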